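import Crest.Agent.N250.Po.Pol
import Crest.Agent.R241.AF2

/-!
# Row 250, polar graphs (helper27): area formula, lifting periodic functions of `(x, θ)`
-/

set_option autoImplicit false
open MeasureTheory Set Filter Topology Function
open scoped ContDiff InnerProductSpace
open Crest.GeometryTopology.MCF

noncomputable section

namespace Crest.Agent.N250.Po

/-! ### the area formula for maps of `ℝ × ℝ` -/

/-- coordinates of the Euclidean plane -/
def pj : EuclideanSpace ℝ (Fin 2) →L[ℝ] ℝ × ℝ :=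
  (EuclideanSpace.proj (0 : Fin 2)).prod (EuclideanSpace.proj (1 : Fin 2))

theorem pj_emb : MeasurableEmbedding pj :=
  ((MeasurableEquiv.toLp 2 (Fin 2 → ℝ)).symm.trans
    (MeasurableEquiv.finTwoArrow (α := ℝ))).measurableEmbedding

theorem pj_mp : MeasurePreserving pj :=
  (volume_preserving_finTwoArrow ℝ).comp (PiLp.volume_preserving_ofLp (Fin 2))

theorem pj_surj : Surjective pj := fun q => ⟨!₂[q.1, q.2], rfl⟩

theorem jac_pj (X : ℝ × ℝ → E) (q : ℝ × ℝ) : R241.AF.jac ((fderiv ℝ X q).comp pj) = √(det X q) := by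
  rw [← Real.sqrt_sq (R241.AF.jac_nonneg _),
    R241.AF.jac_sq_gram _ (EuclideanSpace.basisFun (Fin 2) ℝ), Matrix.det_fin_two]
  have h0 : pj (EuclideanSpace.basisFun (Fin 2) ℝ 0) = (1, 0) := by simp [pj]
  have h1 : pj (EuclideanSpace.basisFun (Fin 2) ℝ 1) = (0, 1) := by simp [pj]
  simp only [Matrix.of_apply, ContinuousLinearMap.comp_apply, h0, h1, det, d1, d2, sq]
  rw [real_inner_comm (fderiv ℝ X q (1, 0)) (fderiv ℝ X q (0, 1))]

section Area

variable {X : ℝ × ℝ → E} {s : Set (ℝ × ℝ)} (hs : MeasurableSet s)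
  (hX : ∀ q ∈ s, DifferentiableAt ℝ X q) (hi : InjOn X s)
include hs hX hi

omit hs hi in
theorem has_pj : ∀ z ∈ pj ⁻¹' s,
    HasFDerivWithinAt (X ∘ pj) ((fderiv ℝ X (pj z)).comp pj) (pj ⁻¹' s) z :=
  fun z hz => ((hX _ hz).hasFDerivAt.comp z pj.hasFDerivAt).hasFDerivWithinAt

omit hs hX in
theorem inj_pj : InjOn (X ∘ pj) (pj ⁻¹' s) := fun _ ha _ hb e => pj_emb.injective (hi ha hb e)

omit hs hX hi in
theorem image_pj : (X ∘ pj) '' (pj ⁻¹' s) = X '' s := by
  rw [image_comp, image_preimage_eq _ pj_surj]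

theorem meas_image : MeasurableSet (X '' s) :=
  image_pj (X := X) (s := s) ▸
    R241.AF.measurable_image (pj_emb.measurable hs) (has_pj hX) (inj_pj hi)

omit hs hX hi in
theorem aem_det : AEMeasurable (fun q => (√(det X q)).toNNReal) (volume.restrict s) := by
  have h1 : ∀ w, Measurable fun q => fderiv ℝ X q w := fun w => measurable_fderiv_apply_const ℝ X w
  refine (measurable_real_toNNReal.comp (Measurable.sqrt ?_)).aemeasurable
  exact (((h1 _).inner (h1 _)).mul ((h1 _).inner (h1 _))).sub (((h1 _).inner (h1 _)).pow_const 2)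

/-- the area measure of the image -/
theorem mu_image : (μHE[2] : Measure E).restrict (X '' s) =
    ((volume.restrict s).withDensity fun q => ENNReal.ofReal √(det X q)).map X := by
  have h := R241.AF.map_withDensity_jac (pj_emb.measurable hs) (has_pj hX) (inj_pj hi)
  rw [image_pj, finrank_euclideanSpace_fin] at h
  have hX' : AEMeasurable X (volume.restrict s) :=
    ContinuousOn.aemeasurable (fun q hq => (hX q hq).continuousAt.continuousWithinAt) hs
  have h2 : (volume.restrict s).withDensity (fun q => ENNReal.ofReal √(det X q)) =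
      ((volume.restrict (pj ⁻¹' s)).withDensity
        fun z => ENNReal.ofReal √(det X (pj z))).map pj := by
    ext u hu
    rw [pj_emb.map_apply, withDensity_apply _ hu, withDensity_apply _ (pj_emb.measurable hu),
      Measure.restrict_restrict hu, Measure.restrict_restrict (pj_emb.measurable hu),
      ← preimage_inter, pj_mp.setLIntegral_comp_preimage_emb pj_emb
        (fun q => ENNReal.ofReal √(det X q))]
  rw [← h, h2, AEMeasurable.map_map_of_aemeasurable _ pj_emb.measurable.aemeasurable]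
  · simp only [jac_pj]
  · rw [← h2]; exact hX'.mono_ac (withDensity_absolutelyContinuous _ _)

theorem lint_image (g : E → ENNReal) : ∫⁻ y in X '' s, g y ∂(μHE[2] : Measure E) =
    ∫⁻ q in s, ENNReal.ofReal √(det X q) * g (X q) := by
  have h := R241.AF.lintegral_image_eq (pj_emb.measurable hs) (has_pj hX) (inj_pj hi) g
  rw [image_pj, finrank_euclideanSpace_fin] at h
  rw [h, ← pj_mp.setLIntegral_comp_preimage_emb pj_emb]
  simp only [jac_pj, comp_apply]

theorem emb_res : MeasurableEmbedding (s.domRestrict X) :=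
  ContinuousOn.measurableEmbedding hs
    (fun q hq => (hX q hq).continuousAt.continuousWithinAt) hi

theorem mu_image' : (μHE[2] : Measure E).restrict (X '' s) = Measure.map (s.domRestrict X)
    (Measure.comap (↑) (volume.withDensity fun q => ENNReal.ofReal √(det X q))) := by
  ext u hu
  rw [(emb_res hs hX hi).map_apply, ← lintegral_indicator_one hu, lint_image hs hX hi,
    (MeasurableEmbedding.subtype_coe hs).comap_apply]
  have h1 : MeasurableSet (Subtype.val '' (s.domRestrict X ⁻¹' u)) :=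
    (MeasurableEmbedding.subtype_coe hs).measurableSet_image.2 ((emb_res hs hX hi).measurable hu)
  rw [withDensity_apply _ h1, ← lintegral_indicator h1, ← lintegral_indicator hs]
  refine lintegral_congr fun q => ?_
  by_cases hq : q ∈ s
  · by_cases hu' : X q ∈ u
    · have h2 : q ∈ Subtype.val '' (s.domRestrict X ⁻¹' u) := ⟨⟨q, hq⟩, hu', rfl⟩
      rw [indicator_of_mem hq, indicator_of_mem hu', indicator_of_mem h2]; simp
    · rw [indicator_of_mem hq, indicator_of_notMem hu', indicator_of_notMem, mul_zero]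
      rintro ⟨z, hz, rfl⟩; exact hu' hz
  · rw [indicator_of_notMem hq, indicator_of_notMem]
    rintro ⟨z, -, rfl⟩; exact hq z.2

variable {G : Type} [NormedAddCommGroup G] [NormedSpace ℝ G]

theorem int_image (g : E → G) : ∫ y in X '' s, g y ∂(μHE[2] : Measure E) =
    ∫ q in s, √(det X q) • g (X q) := by
  rw [mu_image' hs hX hi, (emb_res hs hX hi).integral_map]
  simp only [Set.domRestrict_apply, ENNReal.ofReal]
  rw [← (MeasurableEmbedding.subtype_coe hs).integral_map (g := fun z => g (X z)),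
    map_comap_subtype_coe hs, setIntegral_withDensity_eq_setIntegral_smul₀ aem_det _ hs]
  refine setIntegral_congr_fun hs fun z _ => ?_
  simp only [NNReal.smul_def, Real.coe_toNNReal _ (Real.sqrt_nonneg _)]

theorem intg_image (g : E → G) : IntegrableOn g (X '' s) (μHE[2] : Measure E) ↔
    IntegrableOn (fun q => √(det X q) • g (X q)) s := by
  rw [IntegrableOn, mu_image' hs hX hi, (emb_res hs hX hi).integrable_map_iff]
  simp only [Set.domRestrict_eq, ← Function.comp_assoc, ENNReal.ofReal]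
  rw [← (MeasurableEmbedding.subtype_coe hs).integrable_map_iff, map_comap_subtype_coe hs,
    restrict_withDensity hs, integrable_withDensity_iff_integrable_coe_smul₀ aem_det]
  refine integrableOn_congr_fun (fun z _ => ?_) hs
  simp only [Real.coe_toNNReal _ (Real.sqrt_nonneg _), Function.comp_apply]

/-- on a piece of a slice the area measure of `F` is that of the image -/
theorem mu_restrict {F : Mv} {t : ℝ} (hm : ∀ q ∈ s, (X q, t) ∈ F.M) :
    (F.mu t).restrict (X '' s) = (μHE[2] : Measure E).restrict (X '' s) := by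
  rw [Mv.mu, Measure.restrict_restrict (meas_image hs hX hi), inter_eq_left.2]
  rintro _ ⟨q, hq, rfl⟩
  exact hm q hq

end Area

/-! ### polar coordinates -/

variable {Q : E ≃ₗᵢ[ℝ] E}

/-- the transversal part as a complex number -/
def zc (Q : E ≃ₗᵢ[ℝ] E) (y : E) : ℂ := ⟨Q.symm y 1, Q.symm y 2⟩

/-- `(x, θ)` of a point -/
def crd (Q : E ≃ₗᵢ[ℝ] E) (y : E) : ℝ × ℝ := (Q.symm y 0, (zc Q y).arg)

theorem zc_cyl (s r θ : ℝ) : zc Q (Q (cylP s r θ)) = r * (Complex.cos θ + Complex.sin θ * Complex.I) := by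
  apply Complex.ext <;> simp [zc, cylP, ← Complex.ofReal_cos, ← Complex.ofReal_sin]

theorem norm_zc_cyl (s r θ : ℝ) : ‖zc Q (Q (cylP s r θ))‖ = |r| := by
  rw [zc_cyl, norm_mul, Complex.norm_cos_add_sin_mul_I, mul_one, Complex.norm_real,
    Real.norm_eq_abs]

theorem crd_cyl (s : ℝ) {r : ℝ} (hr : 0 < r) (θ : ℝ) :
    crd Q (Q (cylP s r θ)) = (s, toIocMod Real.two_pi_pos (-Real.pi) θ) := by
  rw [crd, zc_cyl, Complex.arg_mul_cos_add_sin_mul_I_eq_toIocMod hr]
  simp [cylP]

theorem cyl_crd (y : E) : Q (cylP (crd Q y).1 ‖zc Q y‖ (crd Q y).2) = y := by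
  rw [← Q.eq_symm_apply]
  ext i
  fin_cases i
  · simp [cylP, crd]
  · exact Complex.norm_mul_cos_arg (zc Q y)
  · exact Complex.norm_mul_sin_arg (zc Q y)

theorem crd_mem (y : E) : (crd Q y).2 ∈ Ioc (-Real.pi) Real.pi := Complex.arg_mem_Ioc _

/-- `2 π`-periodic in the angle -/
def Per {G : Type} (g : ℝ × ℝ → G) : Prop := ∀ s θ, g (s, θ + 2 * Real.pi) = g (s, θ)

theorem Per.int {G : Type} {g : ℝ × ℝ → G} (hg : Per g) (s θ : ℝ) (k : ℤ) :
    g (s, θ + k * (2 * Real.pi)) = g (s, θ) :=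
  Function.Periodic.int_mul (f := fun θ => g (s, θ)) (hg s) k θ

theorem Per.angle {G : Type} {g : ℝ × ℝ → G} (hg : Per g) (s : ℝ) {α β : ℝ}
    (h : (α : Real.Angle) = β) : g (s, α) = g (s, β) := by
  obtain ⟨k, hk⟩ := Real.Angle.angle_eq_iff_two_pi_dvd_sub.1 h
  rw [← hg.int s β k]
  congr 2
  linarith

theorem Per.crd_cyl {G : Type} {g : ℝ × ℝ → G} (hg : Per g) (s : ℝ) {r : ℝ} (hr : 0 < r) (θ : ℝ) :
    g (crd Q (Q (cylP s r θ))) = g (s, θ) := by
  rw [Po.crd_cyl s hr]
  exact hg.angle s (Real.Angle.coe_toIocMod θ _)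

theorem Per.crd_pX {G : Type} {g : ℝ × ℝ → G} (hg : Per g) {r : ℝ × ℝ → ℝ} {q : ℝ × ℝ}
    (hr : 0 < r q) : g (crd Q (pX Q r q)) = g q := hg.crd_cyl q.1 hr q.2

theorem contDiff_zc {n : WithTop ℕ∞} : ContDiff ℝ n (zc Q) := by
  have : zc Q = fun y => ((Q.symm y 1 : ℝ) : ℂ) + ((Q.symm y 2 : ℝ) : ℂ) * Complex.I := by
    funext y; apply Complex.ext <;> simp [zc]
  have h : ∀ i, ContDiff ℝ n fun y => ((Q.symm y i : ℝ) : ℂ) := fun i =>
    Complex.ofRealCLM.contDiff.comp
      ((EuclideanSpace.proj (𝕜 := ℝ) i).contDiff.comp Q.symm.contDiff)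
  rw [this]
  exact (h 1).add ((h 2).mul contDiff_const)

/-- a smooth local branch of `(x, θ)` -/
theorem exists_branch {y : E} (hy : zc Q y ≠ 0) : ∃ c : E → ℝ × ℝ, (∀ n, ContDiffAt ℝ n c y) ∧
    c y = crd Q y ∧ ∀ᶠ z in 𝓝 y, (c z).1 = (crd Q z).1 ∧ ((c z).2 : Real.Angle) = (crd Q z).2 := by
  refine ⟨fun z => (Q.symm z 0, (zc Q y).arg + (Complex.log (zc Q z / zc Q y)).im), fun n => ?_,
    by simp [crd, div_self hy], ?_⟩
  · have h1 : ContDiffAt ℝ n Complex.log (zc Q y / zc Q y) :=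
      (Complex.contDiffAt_log (by simp [div_self hy])).restrict_scalars ℝ
    have h2 : ContDiffAt ℝ n (fun z => Complex.log (zc Q z / zc Q y)) y :=
      ContDiffAt.comp (g := Complex.log) (f := fun z => zc Q z / zc Q y) y h1
        (contDiff_zc.contDiffAt.div_const _)
    have h3 : ContDiffAt ℝ n (fun z => (Complex.log (zc Q z / zc Q y)).im) y :=
      Complex.imCLM.contDiff.contDiffAt.comp y h2
    have h4 : ContDiffAt ℝ n (fun z => Q.symm z 0) y :=
      ((EuclideanSpace.proj (𝕜 := ℝ) 0).contDiff.comp Q.symm.contDiff).contDiffAt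
    exact h4.prodMk (contDiffAt_const.add h3)
  · filter_upwards [(contDiff_zc (Q := Q) (n := 0)).continuous.continuousAt.eventually_ne hy]
      with z hz
    refine ⟨rfl, ?_⟩
    simp only [crd, Complex.log_im, Real.Angle.coe_add, Complex.arg_div_coe_angle hz hy]
    abel

/-- **periodic functions of `(x, θ)` are smooth functions in space off the axis** -/
theorem Per.contDiffAt {G : Type} [NormedAddCommGroup G] [NormedSpace ℝ G] {g : ℝ × ℝ → G}
    (hg : Per g) {n : WithTop ℕ∞} {y : E} (hy : zc Q y ≠ 0) (h : ContDiffAt ℝ n g (crd Q y)) :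
    ContDiffAt ℝ n (fun z => g (crd Q z)) y := by
  obtain ⟨c, h1, h2, h3⟩ := exists_branch hy
  refine (ContDiffAt.comp y (h2 ▸ h) (h1 n)).congr_of_eventuallyEq ?_
  filter_upwards [h3] with z hz
  have := hg.angle (crd Q z).1 hz.2
  rw [comp_apply, ← this, ← hz.1]

section PolArea

variable {r : ℝ × ℝ → ℝ} {I : Set ℝ}

/-- the strip over `I` -/
def strip (I : Set ℝ) : Set (ℝ × ℝ) := I ×ˢ Ioc (-Real.pi) Real.pi

theorem crd_pX {q : ℝ × ℝ} (hq : q ∈ strip I) (hr : 0 < r q) : crd Q (pX Q r q) = q := by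
  rw [pX, crd_cyl _ hr, (toIocMod_eq_self _).2 (by simpa [two_mul] using hq.2)]

theorem injOn_pX (hr : ∀ q ∈ strip I, 0 < r q) : InjOn (pX Q r) (strip I) := fun a ha b hb e => by
  rw [← crd_pX (Q := Q) ha (hr a ha), e, crd_pX hb (hr b hb)]

/-- the image of the strip -/
theorem mem_image_pX (hp : Per r) (hr : ∀ q : ℝ × ℝ, q.1 ∈ I → 0 < r q) (y : E) :
    y ∈ pX Q r '' strip I ↔
      Q.symm y 0 ∈ I ∧ ∃ θ, Q.symm y = cylP (Q.symm y 0) (r (Q.symm y 0, θ)) θ := by
  constructor
  · rintro ⟨q, hq, rfl⟩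
    have : Q.symm (pX Q r q) 0 = q.1 := by simp [pX, cylP]
    rw [this]
    exact ⟨hq.1, q.2, by simp [pX]⟩
  · rintro ⟨h1, θ, h2⟩
    have h0 := hr (Q.symm y 0, θ) h1
    have h3 : y = Q (cylP (Q.symm y 0) (r (Q.symm y 0, θ)) θ) := by rw [← h2]; simp
    refine ⟨crd Q y, ⟨h1, crd_mem y⟩, ?_⟩
    have h4 : r (crd Q y) = ‖zc Q y‖ := by
      rw [h3, hp.crd_cyl _ h0, norm_zc_cyl, abs_of_pos h0]
    rw [pX, h4, cyl_crd]

theorem mem_image_pX' (hr : ∀ q : ℝ × ℝ, q.1 ∈ I → 0 < r q) (y : E) :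
    y ∈ pX Q r '' strip I ↔ Q.symm y 0 ∈ I ∧ ‖zc Q y‖ = r (crd Q y) := by
  constructor
  · rintro ⟨q, hq, rfl⟩
    rw [crd_pX hq (hr q hq.1), pX, norm_zc_cyl, abs_of_pos (hr q hq.1)]
    exact ⟨by simpa [cylP] using hq.1, rfl⟩
  · rintro ⟨h1, h2⟩
    exact ⟨crd Q y, ⟨h1, crd_mem y⟩, by rw [pX, ← h2, cyl_crd]⟩

variable {F : Mv} {t : ℝ} {v : ℝ × ℝ → ℝ} (hI : MeasurableSet I)
  (h : ∀ q ∈ strip I, Pol F t Q r v q)
include hI h

theorem meas_pol : MeasurableSet (pX Q r '' strip I) :=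
  meas_image (hI.prod measurableSet_Ioc) (fun q hq => (h q hq).par.hasX.differentiableAt)
    (injOn_pX fun q hq => (h q hq).pos)

/-- **area formula in polar coordinates** -/
theorem lint_pol (g : E → ENNReal) : ∫⁻ y in pX Q r '' strip I, g y ∂F.mu t =
    ∫⁻ q in strip I, ENNReal.ofReal √(Qv v q) * g (pX Q r q) := by
  have hs : MeasurableSet (strip I) := hI.prod measurableSet_Ioc
  have hX := fun q hq => (h q hq).par.hasX.differentiableAt
  have hi := injOn_pX (Q := Q) fun q hq => (h q hq).pos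
  rw [mu_restrict hs hX hi fun q hq => (h q hq).par.memM, lint_image hs hX hi]
  exact setLIntegral_congr_fun hs fun q hq => by simp only [(h q hq).det_eq]

variable {G : Type} [NormedAddCommGroup G] [NormedSpace ℝ G]

theorem int_pol (g : E → G) : ∫ y in pX Q r '' strip I, g y ∂F.mu t =
    ∫ q in strip I, √(Qv v q) • g (pX Q r q) := by
  have hs : MeasurableSet (strip I) := hI.prod measurableSet_Ioc
  have hX := fun q hq => (h q hq).par.hasX.differentiableAt
  have hi := injOn_pX (Q := Q) fun q hq => (h q hq).pos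
  rw [mu_restrict hs hX hi fun q hq => (h q hq).par.memM, int_image hs hX hi]
  exact setIntegral_congr_fun hs fun q hq => by simp only [(h q hq).det_eq]

theorem intg_pol (g : E → G) : IntegrableOn g (pX Q r '' strip I) (F.mu t) ↔
    IntegrableOn (fun q => √(Qv v q) • g (pX Q r q)) (strip I) := by
  have hs : MeasurableSet (strip I) := hI.prod measurableSet_Ioc
  have hX := fun q hq => (h q hq).par.hasX.differentiableAt
  have hi := injOn_pX (Q := Q) fun q hq => (h q hq).pos
  rw [IntegrableOn, mu_restrict hs hX hi fun q hq => (h q hq).par.memM, ← IntegrableOn,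
    intg_image hs hX hi]
  exact integrableOn_congr_fun (fun q hq => by simp only [(h q hq).det_eq]) hs

end PolArea

/-- the Gaussian weight on a polar graph -/
theorem norm_pX_sq (r : ℝ × ℝ → ℝ) (q : ℝ × ℝ) : ‖pX Q r q‖ ^ 2 = q.1 ^ 2 + r q ^ 2 := by
  rw [← real_inner_self_eq_norm_sq, pX_eq, inner_fr]; ring

theorem Pol.gau_eq {F : Mv} {t : ℝ} {r v : ℝ × ℝ → ℝ} {q : ℝ × ℝ} (h : Pol F t Q r v q) :
    gau 0 1 (pX Q r q) = (4 * Real.pi)⁻¹ * Real.exp (-q.1 ^ 2 / 4 - v q / 2) := by
  rw [gau, sub_zero, norm_pX_sq, h.v_eq, mul_one]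
  congr 2
  ring

end Crest.Agent.N250.Po

end
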