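import Crest.Agent.N250.Re.Comm

/-!
# Row 250, parametrised pieces of a slice (helper27)

`X : ℝ × ℝ → E` parametrises a piece of the slice `t` near `q`: first and second derivatives of
functions, second fundamental form, traces.
-/

set_option autoImplicit false
open MeasureTheory Set Filter Topology Function
open scoped ContDiff InnerProductSpace
open Crest.GeometryTopology.MCF

noncomputable section

namespace Crest.Agent.N250.Po

/-- derivative in the first variable -/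
def d1 {G : Type} [NormedAddCommGroup G] [NormedSpace ℝ G] (g : ℝ × ℝ → G) (q : ℝ × ℝ) : G :=
  fderiv ℝ g q (1, 0)

/-- derivative in the second variable -/
def d2 {G : Type} [NormedAddCommGroup G] [NormedSpace ℝ G] (g : ℝ × ℝ → G) (q : ℝ × ℝ) : G :=
  fderiv ℝ g q (0, 1)

/-! ### linear algebra -/

/-- the projection in terms of a basis of the plane -/
theorem proj_eq (x y n : E) (hn : ⟪n, n⟫_ℝ = 1) (hx : ⟪n, x⟫_ℝ = 0) (hy : ⟪n, y⟫_ℝ = 0)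
    (a b : Fin 3) :
    (⟪x, x⟫_ℝ * ⟪y, y⟫_ℝ - ⟪x, y⟫_ℝ ^ 2) * ((if a = b then 1 else 0) - n a * n b) =
      ⟪y, y⟫_ℝ * (x a * x b) - ⟪x, y⟫_ℝ * (x a * y b + y a * x b) + ⟪x, x⟫_ℝ * (y a * y b) := by
  simp only [inner_eq_sum, Fin.sum_univ_three] at *
  obtain ⟨s, hs⟩ : ∃ s, s = (x 1 * y 2 - x 2 * y 1) * n 0 + (x 2 * y 0 - x 0 * y 2) * n 1 +
    (x 0 * y 1 - x 1 * y 0) * n 2 := ⟨_, rfl⟩
  have h0 : x 1 * y 2 - x 2 * y 1 = s * n 0 := by
    rw [hs]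
    linear_combination (-(x 1 * y 2 - x 2 * y 1)) * hn - (n 1 * x 2 - n 2 * x 1) * hy +
      (n 1 * y 2 - n 2 * y 1) * hx
  have h1 : x 2 * y 0 - x 0 * y 2 = s * n 1 := by
    rw [hs]
    linear_combination (-(x 2 * y 0 - x 0 * y 2)) * hn - (n 2 * x 0 - n 0 * x 2) * hy +
      (n 2 * y 0 - n 0 * y 2) * hx
  have h2 : x 0 * y 1 - x 1 * y 0 = s * n 2 := by
    rw [hs]
    linear_combination (-(x 0 * y 1 - x 1 * y 0)) * hn - (n 0 * x 1 - n 1 * x 0) * hy +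
      (n 0 * y 1 - n 1 * y 0) * hx
  have h3 : (x 0 * x 0 + x 1 * x 1 + x 2 * x 2) * (y 0 * y 0 + y 1 * y 1 + y 2 * y 2) -
      (x 0 * y 0 + x 1 * y 1 + x 2 * y 2) ^ 2 = s ^ 2 := by
    linear_combination (x 1 * y 2 - x 2 * y 1 + s * n 0) * h0 +
      (x 2 * y 0 - x 0 * y 2 + s * n 1) * h1 + (x 0 * y 1 - x 1 * y 0 + s * n 2) * h2 + s ^ 2 * hn
  rw [mul_sub, h3]
  fin_cases a <;> fin_cases b <;> simp only [Fin.zero_eta, Fin.mk_one, Fin.reduceFinMk, Fin.isValue,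
    Fin.reduceEq, if_true, if_false]
  · linear_combination -h3 + (x 1 * y 2 - x 2 * y 1 + s * n 0) * h0
  · linear_combination (x 2 * y 0 - x 0 * y 2) * h0 + s * n 0 * h1
  · linear_combination (x 0 * y 1 - x 1 * y 0) * h0 + s * n 0 * h2
  · linear_combination (x 2 * y 0 - x 0 * y 2) * h0 + s * n 0 * h1
  · linear_combination -h3 + (x 2 * y 0 - x 0 * y 2 + s * n 1) * h1
  · linear_combination (x 0 * y 1 - x 1 * y 0) * h1 + s * n 1 * h2
  · linear_combination (x 0 * y 1 - x 1 * y 0) * h0 + s * n 0 * h2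
  · linear_combination (x 0 * y 1 - x 1 * y 0) * h1 + s * n 1 * h2
  · linear_combination -h3 + (x 0 * y 1 - x 1 * y 0 + s * n 2) * h2

/-- the bilinear form of a matrix -/
def bf (T : Fin 3 → Fin 3 → ℝ) (u w : E) : ℝ := ∑ a, ∑ b, T a b * (u a * w b)

theorem trace_eq (x y n : E) (hn : ⟪n, n⟫_ℝ = 1) (hx : ⟪n, x⟫_ℝ = 0) (hy : ⟪n, y⟫_ℝ = 0)
    (T : Fin 3 → Fin 3 → ℝ) (hT : ∀ b, ∑ a, n a * T a b = 0) :
    (⟪x, x⟫_ℝ * ⟪y, y⟫_ℝ - ⟪x, y⟫_ℝ ^ 2) * ∑ a, T a a =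
      ⟪y, y⟫_ℝ * bf T x x - ⟪x, y⟫_ℝ * (bf T x y + bf T y x) + ⟪x, x⟫_ℝ * bf T y y := by
  have h1 : ∑ a, T a a = ∑ a, ∑ b, T a b * ((if a = b then 1 else 0) - n a * n b) := by
    have h2 : ∑ a, ∑ b, T a b * (n a * n b) = 0 := by
      rw [Finset.sum_comm]
      refine Finset.sum_eq_zero fun b _ => ?_
      rw [← zero_mul (n b), ← hT b, Finset.sum_mul]
      exact Finset.sum_congr rfl fun a _ => by ring
    simp [mul_sub, h2]
  rw [h1]
  simp only [Finset.mul_sum, mul_left_comm _ (T _ _), proj_eq x y n hn hx hy, bf,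
    ← Finset.sum_add_distrib, ← Finset.sum_sub_distrib]
  exact Finset.sum_congr rfl fun a _ => Finset.sum_congr rfl fun b _ => by ring

theorem vec_eq (x y n : E) (hn : ⟪n, n⟫_ℝ = 1) (hx : ⟪n, x⟫_ℝ = 0) (hy : ⟪n, y⟫_ℝ = 0)
    (V : Fin 3 → ℝ) (hV : ∑ a, n a * V a = 0) (b : Fin 3) :
    (⟪x, x⟫_ℝ * ⟪y, y⟫_ℝ - ⟪x, y⟫_ℝ ^ 2) * V b =
      (⟪y, y⟫_ℝ * ∑ a, x a * V a - ⟪x, y⟫_ℝ * ∑ a, y a * V a) * x b +
        (⟪x, x⟫_ℝ * ∑ a, y a * V a - ⟪x, y⟫_ℝ * ∑ a, x a * V a) * y b := by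
  have h1 : V b = ∑ a, V a * ((if a = b then 1 else 0) - n a * n b) := by
    have h2 : ∑ a, V a * (n a * n b) = 0 := by
      rw [← zero_mul (n b), ← hV, Finset.sum_mul]
      exact Finset.sum_congr rfl fun a _ => by ring
    simp [mul_sub, h2]
  rw [h1]
  simp only [Finset.mul_sum, mul_left_comm _ (V _), proj_eq x y n hn hx hy]
  simp only [Fin.sum_univ_three]
  ring

/-- a normal vector is a multiple of the unit normal -/
theorem nor_eq (x y n N : E) (hn : ⟪n, n⟫_ℝ = 1) (hx : ⟪n, x⟫_ℝ = 0) (hy : ⟪n, y⟫_ℝ = 0)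
    (hx' : ⟪x, N⟫_ℝ = 0) (hy' : ⟪y, N⟫_ℝ = 0) (hd : ⟪x, x⟫_ℝ * ⟪y, y⟫_ℝ - ⟪x, y⟫_ℝ ^ 2 ≠ 0) :
    N = ⟪n, N⟫_ℝ • n := by
  ext b
  have h := vec_eq x y n hn hx hy (fun a => N a - ⟪n, N⟫_ℝ * n a) (by
    simp only [mul_sub, Finset.sum_sub_distrib, mul_left_comm _ ⟪n, N⟫_ℝ, ← Finset.mul_sum,
      ← inner_eq_sum, hn]; ring) b
  rw [real_inner_comm] at hx hy
  simp only [mul_sub (x _), mul_sub (y _), Finset.sum_sub_distrib, mul_left_comm _ ⟪n, N⟫_ℝ,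
    ← Finset.mul_sum, ← inner_eq_sum, hx, hy, hx', hy', mul_zero, sub_zero, zero_mul,
    add_zero] at h
  have := (mul_eq_zero.1 h).resolve_left hd
  simpa [sub_eq_zero] using this

/-! ### parametrisations -/

/-- `X` parametrises a piece of the slice `t` near `q` -/
structure Par (F : Mv) (t : ℝ) (X : ℝ × ℝ → E) (q : ℝ × ℝ) : Prop where
  reg : F.Reg
  sm : ContDiffAt ℝ 2 X q
  mem : ∀ᶠ y in 𝓝 q, (X y, t) ∈ F.M

namespace Par

variable {F : Mv} {t : ℝ} {X : ℝ × ℝ → E} {q : ℝ × ℝ} (h : Par F t X q)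
include h

theorem ev : ∀ᶠ y in 𝓝 q, Par F t X y := by
  filter_upwards [h.sm.eventually (by simp), h.mem.eventually_nhds] with y h1 h2
  exact ⟨h.reg, h1, h2⟩

theorem memM : (X q, t) ∈ F.M := h.mem.self_of_nhds

theorem hasX : HasFDerivAt X (fderiv ℝ X q) q := (h.sm.differentiableAt (by simp)).hasFDerivAt

theorem hasP : HasFDerivAt (fun y => ((X y, t) : ST)) ((fderiv ℝ X q).prod 0) q :=
  h.hasX.prodMk (hasFDerivAt_const t q)

theorem diffX (w : ℝ × ℝ) : DifferentiableAt ℝ (fun y => fderiv ℝ X y w) q :=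
  ((h.sm.fderiv_right (m := 1) le_rfl).differentiableAt one_ne_zero).clm_apply
    (differentiableAt_const w)

theorem perp (w : ℝ × ℝ) : ⟪F.n (X q, t), fderiv ℝ X q w⟫_ℝ = 0 := by
  obtain ⟨W, φ, hW, k⟩ := h.reg _ h.memM
  have h1 := HasFDerivAt.comp (g := φ) (f := fun y => ((X y, t) : ST)) q (k.diffAt hW).hasFDerivAt
    h.hasP
  have h2 : HasFDerivAt (φ ∘ fun y => ((X y, t) : ST)) (0 : ℝ × ℝ →L[ℝ] ℝ) q := by
    refine (hasFDerivAt_const (0 : ℝ) q).congr_of_eventuallyEq ?_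
    filter_upwards [h.mem, h.hasP.continuousAt.eventually_mem (k.isOpen.mem_nhds hW)] with y a b
    exact (k.mem _ b).1 a
  have h3 := congrArg (fun T : ℝ × ℝ →L[ℝ] ℝ => T w) (h1.unique h2)
  have h4 : F.Tg (X q, t) (fderiv ℝ X q w, 0) := (k.tg_iff hW h.memM).2 h3
  simpa [Mv.Tg] using h4

theorem hasF {G : Type} [NormedAddCommGroup G] [NormedSpace ℝ G] {f : ST → G}
    (hf : DifferentiableWithinAt ℝ f F.M (X q, t)) :
    HasFDerivAt (fun y => f (X y, t)) ((F.td f (X q, t)).comp ((fderiv ℝ X q).prod 0)) q :=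
  hf.hasFDerivWithinAt.comp_hasFDerivAt q h.hasP h.mem

theorem cd {G : Type} [NormedAddCommGroup G] [NormedSpace ℝ G] {f : ST → G} (hf : F.Sm f) :
    ContDiffAt ℝ 2 (fun y => f (X y, t)) q :=
  (ContDiffWithinAt.comp (f := fun y => ((X y, t) : ST)) (s := {y | (X y, t) ∈ F.M}) q
    ((hf _ h.memM).of_le (WithTop.coe_le_coe.2 (le_top (a := (2 : ℕ∞)))))
    (h.sm.prodMk contDiffAt_const).contDiffWithinAt fun _ hy => hy).contDiffAt h.mem

variable {f : ST → ℝ}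

/-- first derivatives -/
theorem fd (hf : DifferentiableWithinAt ℝ f F.M (X q, t)) (w : ℝ × ℝ) :
    fderiv ℝ (fun y => f (X y, t)) q w = ∑ a, fderiv ℝ X q w a * F.D a f (X q, t) := by
  rw [(h.hasF hf).fderiv, ← Mv.td_perp f (h.perp w)]
  rfl

/-- derivative of `∑ u_a(y) f_a(X y)` -/
theorem fd_sum {u : ℝ × ℝ → E} (hu : DifferentiableAt ℝ u q) {g : Fin 3 → ST → ℝ}
    (hg : ∀ a, F.Sm (g a)) (w : ℝ × ℝ) :
    fderiv ℝ (fun y => ∑ b, u y b * g b (X y, t)) q w =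
      bf (fun a b => F.D a (g b) (X q, t)) (fderiv ℝ X q w) (u q) +
        ∑ b, fderiv ℝ u q w b * g b (X q, t) := by
  have h1 : ∀ b, HasFDerivAt (fun y => u y b) ((EuclideanSpace.proj b).comp (fderiv ℝ u q)) q :=
    fun b => (EuclideanSpace.proj (𝕜 := ℝ) b).hasFDerivAt.comp q hu.hasFDerivAt
  have h2 : ∀ b, HasFDerivAt (fun y => g b (X y, t)) (fderiv ℝ (fun y => g b (X y, t)) q) q :=
    fun b => (h.hasF ((hg b).diffW h.memM)).differentiableAt.hasFDerivAt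
  rw [(HasFDerivAt.fun_sum fun b (_ : b ∈ Finset.univ) => (h1 b).fun_mul (h2 b)).fderiv]
  simp only [sum_apply, add_apply, smul_apply, h.fd ((hg _).diffW h.memM), smul_eq_mul,
    ContinuousLinearMap.comp_apply, Finset.sum_add_distrib, bf, Finset.mul_sum]
  congr 1
  · rw [Finset.sum_comm]
    exact Finset.sum_congr rfl fun a _ => Finset.sum_congr rfl fun b _ => by ring
  · exact Finset.sum_congr rfl fun b _ => mul_comm _ _

/-- second derivatives -/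
theorem fd2 (hf : F.Sm f) (w' w : ℝ × ℝ) :
    fderiv ℝ (fun z => fderiv ℝ (fun y => f (X y, t)) z w) q w' =
      bf (fun a b => F.D a (F.D b f) (X q, t)) (fderiv ℝ X q w') (fderiv ℝ X q w) +
        ∑ b, fderiv ℝ (fun z => fderiv ℝ X z w) q w' b * F.D b f (X q, t) := by
  rw [← h.fd_sum (h.diffX w) (fun b => h.reg.sm_D hf b)]
  refine congrArg (fun T : ℝ × ℝ →L[ℝ] ℝ => T w') (EventuallyEq.fderiv_eq ?_)
  filter_upwards [h.ev] with y hy
  exact hy.fd (hf.diffW hy.memM) w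

/-- the second fundamental form -/
theorem A_eq (w' w : ℝ × ℝ) : bf (fun a b => F.A a b (X q, t)) (fderiv ℝ X q w') (fderiv ℝ X q w) =
    -⟪F.n (X q, t), fderiv ℝ (fun z => fderiv ℝ X z w) q w'⟫_ℝ := by
  have h1 := h.fd_sum (h.diffX w) (fun b => h.reg.sm_nu b) w'
  have h2 : (fun y => ∑ b, fderiv ℝ X y w b * F.nu b (X y, t)) =ᶠ[𝓝 q] fun _ => 0 := by
    filter_upwards [h.ev] with y hy
    rw [← hy.perp w, real_inner_comm, inner_eq_sum]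
    rfl
  rw [h2.fderiv_eq, fderiv_fun_const] at h1
  rw [real_inner_comm, inner_eq_sum]
  exact eq_neg_of_add_eq_zero_left h1.symm

/-- the determinant of the metric -/
def _root_.Crest.Agent.N250.Po.det (X : ℝ × ℝ → E) (q : ℝ × ℝ) : ℝ :=
  ⟪d1 X q, d1 X q⟫_ℝ * ⟪d2 X q, d2 X q⟫_ℝ - ⟪d1 X q, d2 X q⟫_ℝ ^ 2

theorem tr (T : Fin 3 → Fin 3 → ℝ) (hT : ∀ b, ∑ a, F.nu a (X q, t) * T a b = 0) :
    det X q * ∑ a, T a a = ⟪d2 X q, d2 X q⟫_ℝ * bf T (d1 X q) (d1 X q) -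
      ⟪d1 X q, d2 X q⟫_ℝ * (bf T (d1 X q) (d2 X q) + bf T (d2 X q) (d1 X q)) +
        ⟪d1 X q, d1 X q⟫_ℝ * bf T (d2 X q) (d2 X q) :=
  trace_eq _ _ _ (h.reg.inner_n h.memM) (h.perp _) (h.perp _) T hT

/-- mean curvature -/
theorem H_eq : det X q * F.H (X q, t) =
    -(⟪d2 X q, d2 X q⟫_ℝ * ⟪F.n (X q, t), d1 (d1 X) q⟫_ℝ -
      ⟪d1 X q, d2 X q⟫_ℝ * (⟪F.n (X q, t), d1 (d2 X) q⟫_ℝ + ⟪F.n (X q, t), d2 (d1 X) q⟫_ℝ) +
        ⟪d1 X q, d1 X q⟫_ℝ * ⟪F.n (X q, t), d2 (d2 X) q⟫_ℝ) := by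
  have h1 := h.tr (fun a b => F.A a b (X q, t)) fun b => h.reg.n_D h.memM _
  simp only [d1, d2, h.A_eq] at h1
  rw [Mv.H, Finset.sum_apply, h1]
  simp only [d1, d2]
  unfold d1 d2
  ring

/-- tangential derivatives from partial derivatives -/
theorem D_eq (hf : DifferentiableWithinAt ℝ f F.M (X q, t)) (a : Fin 3) :
    det X q * F.D a f (X q, t) =
      (⟪d2 X q, d2 X q⟫_ℝ * d1 (fun y => f (X y, t)) q -
        ⟪d1 X q, d2 X q⟫_ℝ * d2 (fun y => f (X y, t)) q) * d1 X q a +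
      (⟪d1 X q, d1 X q⟫_ℝ * d2 (fun y => f (X y, t)) q -
        ⟪d1 X q, d2 X q⟫_ℝ * d1 (fun y => f (X y, t)) q) * d2 X q a := by
  have h1 := vec_eq (d1 X q) (d2 X q) _ (h.reg.inner_n h.memM) (h.perp _) (h.perp _)
    (fun a => F.D a f (X q, t)) (h.reg.n_D h.memM f) a
  simpa only [d1, d2, det, h.fd hf] using h1

theorem gam_eq {g : ST → ℝ} (hf : DifferentiableWithinAt ℝ f F.M (X q, t))
    (hg : DifferentiableWithinAt ℝ g F.M (X q, t)) : det X q * F.gam f g (X q, t) =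
      ⟪d2 X q, d2 X q⟫_ℝ * (d1 (fun y => f (X y, t)) q * d1 (fun y => g (X y, t)) q) -
      ⟪d1 X q, d2 X q⟫_ℝ * (d1 (fun y => f (X y, t)) q * d2 (fun y => g (X y, t)) q +
        d2 (fun y => f (X y, t)) q * d1 (fun y => g (X y, t)) q) +
      ⟪d1 X q, d1 X q⟫_ℝ * (d2 (fun y => f (X y, t)) q * d2 (fun y => g (X y, t)) q) := by
  have h1 := h.tr (fun a b => F.D a f (X q, t) * F.D b g (X q, t)) fun b => by
    simp only [← mul_assoc, ← Finset.sum_mul, h.reg.n_D h.memM f, zero_mul]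
  rw [show F.gam f g (X q, t) = ∑ a, F.D a f (X q, t) * F.D a g (X q, t) by
    simp [N222.Pre.gam], h1]
  simp only [d1, d2, h.fd hf, h.fd hg, bf, Fin.sum_univ_three]
  ring

/-- the Laplacian in non-divergence form -/
theorem lap_eq (hf : F.Sm f) : det X q * F.lap f (X q, t) =
    ⟪d2 X q, d2 X q⟫_ℝ * (d1 (d1 fun y => f (X y, t)) q - ∑ b, d1 (d1 X) q b * F.D b f (X q, t)) -
    ⟪d1 X q, d2 X q⟫_ℝ * ((d1 (d2 fun y => f (X y, t)) q - ∑ b, d1 (d2 X) q b * F.D b f (X q, t)) +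
      (d2 (d1 fun y => f (X y, t)) q - ∑ b, d2 (d1 X) q b * F.D b f (X q, t))) +
    ⟪d1 X q, d1 X q⟫_ℝ * (d2 (d2 fun y => f (X y, t)) q - ∑ b, d2 (d2 X) q b * F.D b f (X q, t)) := by
  have h1 := h.tr (fun a b => F.D a (F.D b f) (X q, t)) fun b => h.reg.n_D h.memM _
  rw [show F.lap f (X q, t) = ∑ a, F.D a (F.D a f) (X q, t) by simp [N222.Pre.lap], h1]
  unfold d1 d2
  simp only [h.fd2 hf]
  ring

/-- any normal vector is a multiple of `n` -/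
theorem nor {N : E} (h1 : ⟪d1 X q, N⟫_ℝ = 0) (h2 : ⟪d2 X q, N⟫_ℝ = 0) (hd : det X q ≠ 0) :
    N = ⟪F.n (X q, t), N⟫_ℝ • F.n (X q, t) :=
  nor_eq _ _ _ N (h.reg.inner_n h.memM) (h.perp _) (h.perp _) h1 h2 hd

end Par

end Crest.Agent.N250.Po

end
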